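import Vale.Agent.P095.Gamma.Final

/-!
P095: equivariant uniform property Gamma for every action of a countable amenable group on a unital
separable C*-algebra whose central sequence algebra has no characters.
-/

namespace Vale.Agent.Results.P095.AmenableGamma

open Filter Topology BoundedContinuousFunction
open scoped ComplexOrder

theorem result (A : Type*) [CStarAlgebra A] [PartialOrder A] [StarOrderedRing A] [Nontrivial A]
    [TopologicalSpace.SeparableSpace A]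
    (ω : Ultrafilter ℕ) (hω : (ω : Filter ℕ) ≤ atTop)
    (hA : IsEmpty (Vale.Agent.P101.FomegaCharacter A ω))
    (G : Type*) [Group G] [Countable G] [DecidableEq G] (α : G → A ≃⋆ₐ[ℂ] A)
    (h1 : ∀ a, α 1 a = a) (hmul : ∀ g h a, α (g * h) a = α g (α h a))
    (hG : ∀ (K : Finset G) (ε : ℝ), 0 < ε → ∃ F : Finset G, F.Nonempty ∧ ∀ g ∈ K,
      (((F.image (g * ·)) \ F).card : ℝ) ≤ ε * F.card)
    (k : ℕ) (hk : 0 < k) :
    ∃ p : Fin k → ℕ → A, (∀ j n, 0 ≤ p j n) ∧ (∀ n, ∑ j, p j n = 1) ∧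
      ∀ ε > 0, (∀ i j, i ≠ j → ∀ᶠ n in atTop, ∀ τ : A →ₗ[ℂ] ℂ,
          ((∀ x y, τ (x * y) = τ (y * x)) ∧ (∀ x, 0 ≤ τ (star x * x)) ∧ τ 1 = 1) →
            (τ (star (p i n * p j n) * (p i n * p j n))).re < ε) ∧
        (∀ j a, ∀ᶠ n in atTop, ∀ τ : A →ₗ[ℂ] ℂ,
          ((∀ x y, τ (x * y) = τ (y * x)) ∧ (∀ x, 0 ≤ τ (star x * x)) ∧ τ 1 = 1) →
            (τ (star (p j n * a - a * p j n) * (p j n * a - a * p j n))).re < ε ∧
              ‖τ (a * p j n) - τ a / k‖ < ε) ∧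
        ∀ j g, ∀ᶠ n in atTop, ∀ τ : A →ₗ[ℂ] ℂ,
          ((∀ x y, τ (x * y) = τ (y * x)) ∧ (∀ x, 0 ≤ τ (star x * x)) ∧ τ 1 = 1) →
            (τ (star (α g (p j n) - p j n) * (α g (p j n) - p j n))).re < ε :=
  Vale.Agent.P095.Gamma.exists_invariant_division_all hω hA α h1 hmul hG k hk

end Vale.Agent.Results.P095.AmenableGamma
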