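import Vale.Agent.P095.Mix.Statement

/-!
P095: for every action of a countable amenable group, unital or not, a tracially McDuff algebra
has an invariant unital copy of the two by two matrices in its tracial central quotient.
-/

namespace Vale.Agent.Results.P095.AmenableMcDuff

open BoundedContinuousFunction
open Vale.Agent.P095.Mix

universe u v

theorem result :
    (∀ (B : Type u) [CStarAlgebra B] [PartialOrder B] [StarOrderedRing B]
      [TopologicalSpace.SeparableSpace B] (G : Type v) [Group G] [DecidableEq G] [Countable G]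
      (α : G → B ≃⋆ₐ[ℂ] B), IsAmenableAction α →
      ∀ (P : Submodule ℂ B), IsInvariantIdeal α P →
      ∀ (D : Set (B × B)), D.Countable → (∀ d ∈ D, d.1 ∈ P ∧ d.2 ∈ P) →
      (∀ g, ∀ d ∈ D, (α g d.1, α g d.2) ∈ D) →
      ∀ x : ℕ →ᵇ B, IsMatrixUnit (SmallTr P D) ⇑x →
      ∃ v : ℕ → B, (∀ n, ‖v n‖ ≤ 1) ∧ IsMatrixUnit (SmallTr P D) v ∧
        ∀ g, SmallTr P D fun n => α g (v n) - v n) ∧
    (∀ (A : Type u) [CStarAlgebra A] [PartialOrder A] [StarOrderedRing A]
      [TopologicalSpace.SeparableSpace A] (ω : Ultrafilter ℕ), (ω : Filter ℕ) ≤ Filter.atTop →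
      IsEmpty (Vale.Agent.P101.FomegaCharacter A ω) →
      ∀ (G : Type v) [Group G] [DecidableEq G] [Countable G] (α : G → A ≃⋆ₐ[ℂ] A),
      IsAmenableAction α →
      ∃ v : ℕ → A, (∀ n, ‖v n‖ ≤ 1) ∧ IsMatrixUnit SmallAll v ∧
        ∀ g, SmallAll fun n => α g (v n) - v n) :=
  ⟨fun _ _ _ _ _ _ _ _ _ α hα P hP D hD hDP hαD x hx =>
      exists_invariant_matrixUnit_ideal α hα P hP D hD hDP hαD x hx,
    fun _ _ _ _ _ _ hω hA _ _ _ _ α hα => exists_invariant_matrixUnit_all hω hA α hα⟩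

end Vale.Agent.Results.P095.AmenableMcDuff
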