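import Vale.Agent.P095.Rel.Main
import Vale.Agent.P095.Rel.Z.McDuff
import Vale.Agent.P095.SI.Statement
import Vale.Agent.P095.Weak.Main
import Vale.Agent.P095.Weak.Ideal
import Vale.Agent.P095.Inf.Pair

/-!
P095: every action of a countable amenable group on a separable simple `Z`-stable algebra `A` with
the completely positive approximation property, unital or not, is cocycle conjugate to its tensor
product with the trivial action on the Jiang-Su algebra, `A ⊗ Z` being the limit of the stages.  No
hypothesis on traces, comparison or finiteness is made.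
-/

namespace Vale.Agent.Results.P095.AmenableZStable

open Vale.Agent.P101.Lit Vale.Agent.P095
open scoped ComplexOrder

universe u v

theorem result :
    (∀ (B : Type u) [CStarAlgebra B] [PartialOrder B] [StarOrderedRing B]
      [TopologicalSpace.SeparableSpace B] (A : Submodule ℂ B), SI.IsSimpleIdeal A →
      (∀ a ∈ A, star a ∈ A) → (∀ b : B, ∃ r : ℂ, b - r • (1 : B) ∈ A) →
      Rel.IsZStableOn A → SI.HasCPApprox A →
      ∀ (G : Type v) [Group G] [DecidableEq G] [Countable G] (α : G → B ≃⋆ₐ[ℂ] B),
        SI.IsFolnerAction α → (∀ g, ∀ a ∈ A, α g a ∈ A) → Rel.IsEquivZStableOn A α) ∧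
      ∀ i, StageFacts i :=
  ⟨fun _ _ _ _ _ A hA hstar hspan hZ hcp _ _ _ _ α hα hαA =>
    haveI : Rel.IsUnitisation A := ⟨hA.1, hA.2.1, hstar, hspan⟩
    Exists.elim (Weak.exists_setup hA) fun d S =>
      Exists.elim (Rel.Z.exists_zData hZ) fun _ hj =>
        Rel.isEquivZStableOn_of_invariantPair hα.1 hα.2.1 hαA
          ((Classical.em (∃ τ, SI.IsNormTrace (Weak.genIdeal d) d τ)).elim
            (fun hτ => SI.hasInvariantPair_of_weakComp S hcp (Weak.weakComp_of_zStable S hcp hj)
              hτ (Rel.Z.isMcDuff_of_zData hj S) α hα hαA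
              fun g => Weak.map_mem_genIdeal S (α g) (hαA g))
            fun hn => Inf.hasInvariantPair_of_pureInf hj hA hcp
              (Weak.pureInf_of_no_trace S hcp hj hn) (S.le S.d_mem) S.d_nonneg S.d_norm S.d_nondeg
              α hα hαA),
    stageFacts⟩

end Vale.Agent.Results.P095.AmenableZStable
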