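import Vale.Agent.P095.Lit.Main
import Vale.Agent.P095.Lit.Hyp
import Vale.Agent.P095.Lit.Plain
import Vale.Agent.P095.Lit.Statement

/-!
P095: actions of countable amenable groups on simple algebras, and locally finite actions on all
algebras, are cocycle conjugate to their tensor products with the trivial action on the Jiang-Su
algebra, with `A ⊗ Z` the limit of the stages `A ⊗ I(pp i, qq i)`.
-/

namespace Vale.Agent.Results.P095.EquivariantZStable

open Vale.Agent.P101.Lit Vale.Agent.P095.Lit
open scoped ComplexOrder

universe u v

theorem result :
    (∀ (A : Type u) [CStarAlgebra A] [PartialOrder A] [StarOrderedRing A]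
      [TopologicalSpace.SeparableSpace A], HasDimDropSeq A →
      ∀ (G : Type v) [Group G] [Countable G] (α : G → A ≃⋆ₐ[ℂ] A),
      (∀ a, α 1 a = a) → (∀ g h a, α (g * h) a = α g (α h a)) →
      IsAmenableCase α ∨ IsLocallyFiniteCase α → IsEquivZStablePlain α) ∧ ∀ i, StageFacts i :=
  equivariant_statement

end Vale.Agent.Results.P095.EquivariantZStable
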